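import Mathlib

/-!
Smooth metrics `dx² + (p(y) + q(y) a(x))² dy²` are locally isometrically realised in `ℝ³` by
smooth moulding surfaces, with no condition on the zero set or vanishing order of the curvature.
-/

open scoped ContDiff
open Real Set

namespace Vale.Agent.P229

/-- A smooth primitive on an open interval. -/
theorem exists_primitive {f : ℝ → ℝ} {a b : ℝ} (hab : a < b)
    (hf : ContDiffOn ℝ ∞ f (Ioo a b)) :
    ∃ F : ℝ → ℝ, ContDiffOn ℝ ∞ F (Ioo a b) ∧ ∀ t ∈ Ioo a b, HasDerivAt F (f t) t := by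
  obtain ⟨c, hc⟩ : (Ioo a b).Nonempty := nonempty_Ioo.2 hab
  have h : ∀ t ∈ Ioo a b, HasDerivAt (fun u => ∫ s in c..u, f s) (f t) t := by
    intro t ht
    have hsub : uIcc c t ⊆ Ioo a b := (ordConnected_Ioo.uIcc_subset hc ht)
    exact intervalIntegral.integral_hasDerivAt_right
      ((hf.continuousOn.mono hsub).intervalIntegrable)
      (hf.continuousOn.stronglyMeasurableAtFilter isOpen_Ioo t ht)
      (hf.continuousOn.continuousAt (isOpen_Ioo.mem_nhds ht))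
  refine ⟨_, (contDiffOn_infty_iff_deriv_of_isOpen isOpen_Ioo).2
    ⟨fun t ht => (h t ht).differentiableAt.differentiableWithinAt, ?_⟩, h⟩
  exact hf.congr fun t ht => (h t ht).deriv

end Vale.Agent.P229

open Vale.Agent.P229

theorem Vale.Agent.Results.P229.MongeMetrics.result (p q a : ℝ → ℝ)
    (hp : ContDiff ℝ ∞ p) (hq : ContDiff ℝ ∞ q) (ha : ContDiff ℝ ∞ a)
    (x₀ y₀ : ℝ) :
    ∃ (U : Set (ℝ × ℝ)) (Φ : ℝ × ℝ → EuclideanSpace ℝ (Fin 3)),
      IsOpen U ∧ (x₀, y₀) ∈ U ∧ ContDiffOn ℝ ∞ Φ U ∧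
      ∀ z ∈ U, ∀ v w : ℝ × ℝ,
        inner ℝ (fderiv ℝ Φ z v) (fderiv ℝ Φ z w)
          = v.1 * w.1 + (p z.2 + q z.2 * a z.1) ^ 2 * (v.2 * w.2) := by
  obtain ⟨M, hM⟩ : ∃ M : ℝ, |deriv a x₀| < M := ⟨|deriv a x₀| + 1, by linarith⟩
  have hM0 : 0 < M := lt_of_le_of_lt (abs_nonneg _) hM
  have hda : ContDiff ℝ ∞ (deriv a) := (contDiff_infty_iff_deriv.1 ha).2
  obtain ⟨δ, hδ, hball⟩ := Metric.isOpen_iff.1
    (isOpen_lt hda.continuous.abs continuous_const (g := fun _ => M)) x₀ hM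
  rw [Real.ball_eq_Ioo] at hball
  obtain ⟨e, he0, he⟩ : ∃ e : ℝ, 0 < e ∧ e * M = 1 / 2 := ⟨1 / (2 * M), by positivity, by field_simp⟩
  have hrad : ∀ t ∈ Ioo (x₀ - δ) (x₀ + δ), 0 < 1 - (e * deriv a t) ^ 2 := by
    intro t ht
    have h2 : |e * deriv a t| < 1 := by
      rw [abs_mul, abs_of_pos he0]
      have := mul_lt_mul_of_pos_left (show |deriv a t| < M from hball ht) he0
      linarith
    have h3 := (sq_lt_one_iff_abs_lt_one _).2 h2
    linarith
  obtain ⟨Z, hZs, hZ⟩ := exists_primitive (f := fun t => √(1 - (e * deriv a t) ^ 2))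
    (show x₀ - δ < x₀ + δ by linarith)
    (((contDiff_const.sub ((contDiff_const.mul hda).pow 2)).contDiffOn).sqrt
      fun t ht => (hrad t ht).ne')
  obtain ⟨θ, hθs, hθ⟩ := exists_primitive (f := fun t => -(q t / e))
    (show y₀ - 1 < y₀ + 1 by linarith) ((hq.div_const e).neg.contDiffOn)
  obtain ⟨A, hAs, hA⟩ := exists_primitive (f := fun t => p t * cos (θ t))
    (show y₀ - 1 < y₀ + 1 by linarith)
    (hp.contDiffOn.mul (Real.contDiff_cos.comp_contDiffOn hθs))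
  obtain ⟨B, hBs, hB⟩ := exists_primitive (f := fun t => p t * sin (θ t))
    (show y₀ - 1 < y₀ + 1 by linarith)
    (hp.contDiffOn.mul (Real.contDiff_sin.comp_contDiffOn hθs))
  set I := Ioo (x₀ - δ) (x₀ + δ)
  set J := Ioo (y₀ - 1) (y₀ + 1)
  refine ⟨I ×ˢ J, fun z => WithLp.toLp 2 ![A z.2 - e * a z.1 * sin (θ z.2),
    B z.2 + e * a z.1 * cos (θ z.2), Z z.1], isOpen_Ioo.prod isOpen_Ioo,
    ⟨⟨by linarith, by linarith⟩, ⟨by linarith, by linarith⟩⟩, ?_, ?_⟩
  · have m1 : MapsTo Prod.fst (I ×ˢ J) I := fun z hz => hz.1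
    have m2 : MapsTo Prod.snd (I ×ˢ J) J := fun z hz => hz.2
    have cA : ContDiffOn ℝ ∞ (fun z : ℝ × ℝ => A z.2) (I ×ˢ J) :=
      hAs.comp contDiff_snd.contDiffOn m2
    have cB : ContDiffOn ℝ ∞ (fun z : ℝ × ℝ => B z.2) (I ×ˢ J) :=
      hBs.comp contDiff_snd.contDiffOn m2
    have cθ : ContDiffOn ℝ ∞ (fun z : ℝ × ℝ => θ z.2) (I ×ˢ J) :=
      hθs.comp contDiff_snd.contDiffOn m2
    have cR : ContDiffOn ℝ ∞ (fun z : ℝ × ℝ => e * a z.1) (I ×ˢ J) :=
      (contDiff_const.mul (ha.comp contDiff_fst)).contDiffOn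
    refine (contDiffOn_piLp _).2 fun i => ?_
    fin_cases i
    · exact cA.sub (cR.mul (Real.contDiff_sin.comp_contDiffOn cθ))
    · exact cB.add (cR.mul (Real.contDiff_cos.comp_contDiffOn cθ))
    · exact hZs.comp contDiff_fst.contDiffOn m1
  · rintro ⟨x, y⟩ ⟨hx, hy⟩ v w
    have k1 : HasFDerivAt (fun z : ℝ × ℝ => z.1) (ContinuousLinearMap.fst ℝ ℝ ℝ) (x, y) :=
      hasFDerivAt_fst
    have k2 : HasFDerivAt (fun z : ℝ × ℝ => z.2) (ContinuousLinearMap.snd ℝ ℝ ℝ) (x, y) :=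
      hasFDerivAt_snd
    have dR := (((ha.differentiable (by simp) x).hasDerivAt).comp_hasFDerivAt (x, y) k1).const_mul e
    have dS := (hθ y hy).sin.comp_hasFDerivAt (x, y) k2
    have dC := (hθ y hy).cos.comp_hasFDerivAt (x, y) k2
    have d0 : HasFDerivAt (fun z : ℝ × ℝ => A z.2 - e * a z.1 * sin (θ z.2)) _ (x, y) :=
      ((hA y hy).comp_hasFDerivAt (x, y) k2).sub (dR.mul dS)
    have d1 : HasFDerivAt (fun z : ℝ × ℝ => B z.2 + e * a z.1 * cos (θ z.2)) _ (x, y) :=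
      ((hB y hy).comp_hasFDerivAt (x, y) k2).add (dR.mul dC)
    have d2 : HasFDerivAt (fun z : ℝ × ℝ => Z z.1) _ (x, y) := (hZ x hx).comp_hasFDerivAt (x, y) k1
    have hd : DifferentiableAt ℝ (fun z : ℝ × ℝ => WithLp.toLp 2 ![A z.2 - e * a z.1 * sin (θ z.2),
        B z.2 + e * a z.1 * cos (θ z.2), Z z.1]) (x, y) := by
      refine (differentiableAt_piLp _).2 fun i => ?_
      fin_cases i
      · exact d0.differentiableAt
      · exact d1.differentiableAt
      · exact d2.differentiableAt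
    have hcomp : ∀ (u : ℝ × ℝ) (i : Fin 3), fderiv ℝ (fun z : ℝ × ℝ => WithLp.toLp 2
        ![A z.2 - e * a z.1 * sin (θ z.2), B z.2 + e * a z.1 * cos (θ z.2), Z z.1]) (x, y) u i
        = fderiv ℝ (fun z : ℝ × ℝ => ![A z.2 - e * a z.1 * sin (θ z.2),
          B z.2 + e * a z.1 * cos (θ z.2), Z z.1] i) (x, y) u := fun u i => by
      have h := ((PiLp.hasFDerivAt_apply 2 _ i).comp (x, y) hd.hasFDerivAt).fderiv
      exact (congrArg (fun T => T u) h).symm
    rw [PiLp.inner_apply, Fin.sum_univ_three]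
    simp only [hcomp, RCLike.inner_apply, conj_trivial]
    simp only [Matrix.cons_val_zero, Matrix.cons_val_one, Matrix.cons_val_two, Matrix.head_cons,
      Matrix.tail_cons, d0.fderiv, d1.fderiv, d2.fderiv]
    simp only [Function.comp_apply, sub_apply, add_apply, smul_apply, smul_eq_mul,
      ContinuousLinearMap.coe_fst', ContinuousLinearMap.coe_snd']
    have hs := sin_sq_add_cos_sq (θ y)
    have hr := sq_sqrt (hrad x hx).le
    rw [mul_pow] at hr ⊢
    field_simp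
    linear_combination (e ^ 2 * deriv a x ^ 2 * v.1 * w.1
      + (p y + q y * a x) ^ 2 * v.2 * w.2) * hs + v.1 * w.1 * hr
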